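import Vale.Agent.H43.NS.Force
import Vale.Agent.H45.NS.WDer
import Vale.Agent.H97.NS.GDerFinal
import Vale.Agent.H8.NS.GFactFinal

/-!
TASK FORCE of the P113 development, final form: all mixed derivatives of the force `fN ν N` at
rational points are computable reals.
-/

namespace Vale.Agent.H43

open Vale.Agent.H30

theorem force_creal (ν : ℝ)
    (hν : ∃ φ : ℕ → ℕ × ℕ × ℕ, Computable φ ∧ ∀ k : ℕ, |ν - qv (φ k)| ≤ 1 / ((k : ℝ) + 1)) :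
    CReal (fun p : ℕ × ℕ × (ℕ × ℕ × ℕ) × Fin 3 × (ℕ × ℕ × ℕ)
        × ((ℕ × ℕ × ℕ) × (ℕ × ℕ × ℕ) × (ℕ × ℕ × ℕ)) =>
      mixedD p.2.1 p.2.2.1 (fun s y => fN ν p.1 s y p.2.2.2.1) (qv p.2.2.2.2.1)
        ![qv p.2.2.2.2.2.1, qv p.2.2.2.2.2.2.1, qv p.2.2.2.2.2.2.2]) :=
  force_creal_of (fun a b hab => Vale.Agent.H45.Wfun_deriv_creal a b hab)
    Vale.Agent.H97.gfun_deriv_creal Vale.Agent.H8.gfun_smooth ν hν

end Vale.Agent.H43
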